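import Mathlib

namespace Vale.Agent.P322

/-- Probability that `(X, Z) = (x, z)`: `X` is uniform on `{-1,1}^n`, the signs `Z i` are
independent of `X` and of each other, and `Z i = -1` with probability `ε`. -/
noncomputable def pairLaw (n : ℕ) (ε : ℝ) (x z : Fin n → ℤˣ) : ℝ :=
  (1 / 2) ^ n * ∏ i, (if z i = -1 then ε else 1 - ε)

/-- Joint law of `(f(X), Y)`, where `Y = X * Z` coordinatewise. -/
noncomputable def outLaw (n : ℕ) (ε : ℝ) (f : (Fin n → ℤˣ) → ℤˣ) (b : ℤˣ) (y : Fin n → ℤˣ) : ℝ :=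
  ∑ x : Fin n → ℤˣ, ∑ z : Fin n → ℤˣ, if f x = b ∧ x * z = y then pairLaw n ε x z else 0

/-- Mutual information (in bits) of a joint law on a product of two finite sets. -/
noncomputable def mutualInfo {α β : Type} [Fintype α] [Fintype β] (p : α → β → ℝ) : ℝ :=
  ∑ a, ∑ b, p a b * Real.logb 2 (p a b / ((∑ b', p a b') * (∑ a', p a' b)))

/-- Binary entropy in bits. -/
noncomputable def h2 (p : ℝ) : ℝ := -p * Real.logb 2 p - (1 - p) * Real.logb 2 (1 - p)

end Vale.Agent.P322
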